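import Mathlib
import Vale.Agent.Lib.P249.Wrap

/-!
# P249: near-linear dimension reduction for finite subsets of `L_p`, all `p ≥ 1`

Every `n`-point subset of `ℓ_p^m` embeds with distortion `D > 1` into `ℓ_p^d` with
`d ≤ C(p,D) * n * (log n)^(p+2)`.  For `p > 2` this improves the bounds
`n^(p/2) log n` and `n(n-1)/2`.
-/

namespace Vale.Agent.Results.P249.NearLinear

/-- `ℓ_p^d`: the space `ℝ^d` with the norm `(∑ |y_k|^p)^(1/p)`. -/
abbrev ellp (p : ℝ) (d : ℕ) : Type := PiLp (ENNReal.ofReal p) (fun _ : Fin d => ℝ)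

/-- Every `n`-point subset of every `ℓ_p^m` admits a map into `ℓ_p^d` of distortion at most `D`. -/
def Reduces (p : ℝ) (n : ℕ) (D : ℝ) (d : ℕ) : Prop :=
  ∀ (m : ℕ) (X : Finset (ellp p m)), X.card = n →
    ∃ (f : ellp p m → ellp p d) (s : ℝ), 0 < s ∧
      ∀ x ∈ X, ∀ x' ∈ X, s * ‖x - x'‖ ≤ ‖f x - f x'‖ ∧ ‖f x - f x'‖ ≤ D * s * ‖x - x'‖

/-- `d_p(n,D)`: the least target dimension that works for all `n`-point subsets. -/
noncomputable def dimRed (p : ℝ) (n : ℕ) (D : ℝ) : ℕ := sInf {d | Reduces p n D d}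

theorem result (p : ℝ) (hp : 1 ≤ p) (D : ℝ) (hD : 1 < D) (n : ℕ) (hn : 2 ≤ n) :
    Reduces p n D (dimRed p n D) ∧
      (dimRed p n D : ℝ) ≤
        (108 * 2 ^ (p - 1) * 6 ^ p / ((D - 1) / (D + 1)) ^ 2 + 2 ^ (p + 2)) * n
          * (Real.log n) ^ (p + 2) := by
  obtain ⟨d, hd, hred⟩ := Vale.Agent.Lib.P249.wrap p hp D hD n hn
  have hmem : d ∈ {d | Reduces p n D d} := hred
  constructor
  · exact Nat.sInf_mem (s := {d | Reduces p n D d}) ⟨d, hmem⟩
  · have h1 : dimRed p n D ≤ d := Nat.sInf_le hmem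
    have h2 : (dimRed p n D : ℝ) ≤ (d : ℝ) := by exact_mod_cast h1
    exact le_trans h2 hd

end Vale.Agent.Results.P249.NearLinear
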