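import Mathlib
import Vale.Agent.Lib.P249.Wrap2
import Vale.Agent.Lib.P249.LowerWrap
import Vale.Agent.Lib.P249.LowerLog

/-!
# P249: for `p > 2`, `c (log n / log log n)^(p/2) ≤ d_p(n,D) ≤ C n log n`
-/

namespace Vale.Agent.Results.P249.TwoSided

/-- `ℓ_p^d`: the space `ℝ^d` with the norm `(∑ |y_k|^p)^(1/p)`. -/
abbrev ellp (p : ℝ) (d : ℕ) : Type := PiLp (ENNReal.ofReal p) (fun _ : Fin d => ℝ)

/-- Every `n`-point subset of every `ℓ_p^m` admits a map into `ℓ_p^d` of distortion at most `D`. -/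
def Reduces (p : ℝ) (n : ℕ) (D : ℝ) (d : ℕ) : Prop :=
  ∀ (m : ℕ) (X : Finset (ellp p m)), X.card = n →
    ∃ (f : ellp p m → ellp p d) (s : ℝ), 0 < s ∧
      ∀ x ∈ X, ∀ x' ∈ X, s * ‖x - x'‖ ≤ ‖f x - f x'‖ ∧ ‖f x - f x'‖ ≤ D * s * ‖x - x'‖

/-- `d_p(n,D)`: the least target dimension that works for all `n`-point subsets. -/
noncomputable def dimRed (p : ℝ) (n : ℕ) (D : ℝ) : ℕ := sInf {d | Reduces p n D d}

theorem result (p : ℝ) (hp : 2 < p) :
    ∃ c : ℝ, 0 < c ∧ ∀ (D : ℝ), 1 < D → ∀ (n : ℕ), 3 ≤ n →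
      Reduces p n D (dimRed p n D) ∧
      c / D ^ p * (Real.log n / Real.log (Real.log n + 2)) ^ (p / 2) ≤ (dimRed p n D : ℝ) ∧
      (dimRed p n D : ℝ) ≤
        (12 * (6 * 9 ^ p + 2) / ((D - 1) / (D + 1)) ^ 2 + 1) * n * Real.log n := by
  obtain ⟨c, hc0, hc⟩ := Vale.Agent.Lib.P249.lower_wrap p hp.le
  refine ⟨c / 2 ^ (p / 2), by positivity, ?_⟩
  intro D hD n hn
  obtain ⟨d, hd, hred⟩ := Vale.Agent.Lib.P249.wrap2 p (by linarith) D hD n (by omega)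
  have hmem : d ∈ {d | Reduces p n D d} := hred
  have hmin : Reduces p n D (dimRed p n D) :=
    Nat.sInf_mem (s := {d | Reduces p n D d}) ⟨d, hmem⟩
  refine ⟨hmin, ?_, ?_⟩
  · obtain ⟨k, hk1, hkn, hkq⟩ := Vale.Agent.Lib.P249.choose_k n hn
    have h1 := hc D (by linarith) k hk1 n hkn (dimRed p n D) hmin
    refine le_trans ?_ h1
    have hDp : 0 < D ^ p := Real.rpow_pos_of_pos (by linarith) p
    have hnR : (3 : ℝ) ≤ (n : ℝ) := by exact_mod_cast hn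
    have hl0 : 0 ≤ Real.log n := Real.log_nonneg (by linarith)
    have hq0 : 0 ≤ Real.log n / Real.log (Real.log n + 2) :=
      div_nonneg hl0 (Real.log_nonneg (by linarith))
    have h2 : (Real.log n / Real.log (Real.log n + 2)) ^ (p / 2) ≤ (2 * (k : ℝ)) ^ (p / 2) :=
      Real.rpow_le_rpow hq0 hkq (by linarith)
    rw [Real.mul_rpow (by norm_num) (Nat.cast_nonneg k)] at h2
    have h3 : c / 2 ^ (p / 2) / D ^ p * (Real.log n / Real.log (Real.log n + 2)) ^ (p / 2)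
        ≤ c / 2 ^ (p / 2) / D ^ p * (2 ^ (p / 2) * (k : ℝ) ^ (p / 2)) :=
      mul_le_mul_of_nonneg_left h2 (by positivity)
    refine h3.trans (le_of_eq ?_)
    field_simp
  · have h1 : dimRed p n D ≤ d := Nat.sInf_le hmem
    have h2 : (dimRed p n D : ℝ) ≤ (d : ℝ) := by exact_mod_cast h1
    exact le_trans h2 hd

end Vale.Agent.Results.P249.TwoSided
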